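import Mathlib
import Vale.Agent.Lib.P058.Defs

/-!
# P058, pool job J3: the group of linear isometries of the plane is soluble
-/

namespace Vale.Agent.Lib.P058.H22

open Vale.Agent.Lib.P058

/-- The determinant, as a group homomorphism on the linear isometries of the plane `ℂ`. -/
noncomputable def detHom : (ℂ ≃ₗᵢ[ℝ] ℂ) →* ℝˣ :=
  (LinearEquiv.det : (ℂ ≃ₗ[ℝ] ℂ) →* ℝˣ).comp
    { toFun := fun e => e.toLinearEquiv
      map_one' := rfl
      map_mul' := fun _ _ => rfl }

theorem detHom_apply (e : ℂ ≃ₗᵢ[ℝ] ℂ) : detHom e = LinearEquiv.det e.toLinearEquiv := rfl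

theorem isSolvable_O2 : Group.IsSolvable (ℂ ≃ₗᵢ[ℝ] ℂ) := by
  refine Group.isSolvable_of_ker_le_range rotation detHom ?_
  intro f hf
  rw [MonoidHom.mem_ker] at hf
  rw [MonoidHom.mem_range]
  obtain ⟨a, ha | ha⟩ := linear_isometry_complex f
  · exact ⟨a, ha.symm⟩
  · exfalso
    have h1 : detHom f = detHom (rotation a) * detHom Complex.conjLIE := by
      rw [← map_mul, ha]
      rfl
    rw [h1, detHom_apply, detHom_apply, linearEquiv_det_rotation, Complex.linearEquiv_det_conjLIE,
      one_mul] at hf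
    have h2 := congrArg Units.val hf
    norm_num at h2

end Vale.Agent.Lib.P058.H22
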